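import Vale.Agent.P054.Asymptotic

namespace Vale.Agent.Results.P054.ImprovedExponents

open Vale.Agent.P054

/-- Lower bounds `n^(2/(d+o(1)))` for the Erdős distinct distances problem in `ℝ^d`. -/
theorem result :
    (∀ d : ℕ, 4 ≤ d → ∃ c : ℝ, 0 < c ∧ ∀ P : Finset (EuclideanSpace ℝ (Fin d)), 2 ≤ P.card →
      c * (P.card : ℝ) ^ (2 / ((d : ℝ) + 16 / Real.sqrt d))
        ≤ ((P.offDiag.image fun z => dist z.1 z.2).card : ℝ)) ∧
    (∀ ε : ℝ, 0 < ε → ∃ d₀ : ℕ, ∀ d : ℕ, d₀ ≤ d → ∃ c : ℝ, 0 < c ∧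
      ∀ P : Finset (EuclideanSpace ℝ (Fin d)), 2 ≤ P.card →
        c * (P.card : ℝ) ^ (2 / ((d : ℝ) + ε))
          ≤ ((P.offDiag.image fun z => dist z.1 z.2).card : ℝ)) ∧
    (∀ d : ℕ, 4 ≤ d → ∃ c : ℝ, 0 < c ∧ ∀ P : Finset (EuclideanSpace ℝ (Fin d)), 2 ≤ P.card →
      c * (P.card : ℝ) ^ ((6 : ℝ) / (3 * (d : ℝ) + 2))
        ≤ ((P.offDiag.image fun z => dist z.1 z.2).card : ℝ)) ∧
    (∀ d : ℕ, 4 ≤ d → ∃ c : ℝ, 0 < c ∧ ∀ P : Finset (EuclideanSpace ℝ (Fin d)), 2 ≤ P.card →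
      c * (P.card : ℝ) ^ (2 / ((d : ℝ) + 1 / 2 + 1 / Real.sqrt d))
        ≤ ((P.offDiag.image fun z => dist z.1 z.2).card : ℝ)) ∧
    (∃ c : ℝ, 0 < c ∧ ∀ P : Finset (EuclideanSpace ℝ (Fin 4)), 2 ≤ P.card →
      c * (P.card : ℝ) ^ ((11 : ℝ) / 25)
        ≤ ((P.offDiag.image fun z => dist z.1 z.2).card : ℝ)) := by
  have sharp : ∀ d : ℕ, 2 ≤ d → ∀ x : ℝ, 8 / Real.sqrt d ≤ x → ∃ c : ℝ, 0 < c ∧
      ∀ P : Finset (EuclideanSpace ℝ (Fin d)), 2 ≤ P.card →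
        c * (P.card : ℝ) ^ (2 / ((d : ℝ) + 2 * x))
          ≤ ((P.offDiag.image fun z => dist z.1 z.2).card : ℝ) := by
    intro d hd x hx
    have hd' : (2 : ℝ) ≤ d := by exact_mod_cast hd
    have hx0 : 0 ≤ x := le_trans (by positivity) hx
    have hA : (0 : ℝ) < (d : ℝ) / 2 + x := by linarith
    have h := bd_lower hA ((bd_sharp d hd).mono (by linarith))
    have e : 1 / ((d : ℝ) / 2 + x) = 2 / ((d : ℝ) + 2 * x) := by
      rw [div_eq_div_iff (by positivity) (by positivity)]; ring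
    rwa [e] at h
  refine ⟨fun d hd => ?_, fun ε hε => ?_, fun d hd => ?_, fun d hd => ?_, ?_⟩
  · have h := sharp d (by omega) _ le_rfl
    rwa [show 2 * (8 / Real.sqrt d) = 16 / Real.sqrt d by ring] at h
  · refine ⟨⌈(16 / ε) ^ 2⌉₊ + 2, fun d hd => ?_⟩
    have hd' : (16 / ε) ^ 2 ≤ (d : ℝ) :=
      (Nat.le_ceil _).trans (Nat.cast_le.2 (le_trans (Nat.le_add_right _ _) hd))
    have hs : 16 / ε ≤ Real.sqrt d := Real.le_sqrt_of_sq_le hd'
    have hs0 : 0 < Real.sqrt d := lt_of_lt_of_le (by positivity) hs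
    have h := sharp d (by omega) (ε / 2) (by
      rw [div_le_iff₀ hε] at hs
      rw [div_le_div_iff₀ hs0 (by norm_num)]
      linarith)
    rwa [show 2 * (ε / 2) = ε by ring] at h
  · have hA : (0 : ℝ) < (3 * (d : ℝ) + 2) / 6 := by positivity
    have h := bd_lower hA (bd_uniform d hd)
    rwa [one_div_div] at h
  · have hA : (0 : ℝ) < (d : ℝ) / 2 + 1 / 4 + 1 / (2 * Real.sqrt d) := by positivity
    have h := bd_lower hA (bd_asymptotic d (by omega))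
    have e : 1 / ((d : ℝ) / 2 + 1 / 4 + 1 / (2 * Real.sqrt d))
        = 2 / ((d : ℝ) + 1 / 2 + 1 / Real.sqrt d) := by
      have hs : Real.sqrt d ≠ 0 := Real.sqrt_ne_zero'.2 (by exact_mod_cast (by omega : 0 < d))
      have hden : (d : ℝ) + 1 / 2 + 1 / Real.sqrt d
          = 2 * ((d : ℝ) / 2 + 1 / 4 + 1 / (2 * Real.sqrt d)) := by field_simp; ring
      rw [hden]
      field_simp
    rwa [e] at h
  · have h := bd_lower (by norm_num : (0 : ℝ) < 25 / 11) bd_four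
    rwa [one_div_div] at h

end Vale.Agent.Results.P054.ImprovedExponents
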